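import Vale.Agent.P039.H703.Rank
import Mathlib.LinearAlgebra.Matrix.ToLinearEquiv
import Mathlib.LinearAlgebra.Matrix.Nondegenerate

/-! A good matching `f` of the black triangles with the vertices gives, for every colour `k`, a
perfect matching of the web through the edge of colour `k` at `b0`. -/

namespace Vale.Agent.P039.H703

open Vale.Agent.P039.Bn Finset Matrix

variable {B W V : Type}

/-- `f` matches the black triangles off `b0` with the vertices which are not at `b0`. -/
structure Mat (M : PMap B W V) (b0 : B) (f : B → Fin 3) : Prop where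
  off : ∀ b, b ≠ b0 → ∀ j, M.c (f b) b ≠ M.c j b0
  inj : ∀ b b', b ≠ b0 → b' ≠ b0 → M.c (f b) b = M.c (f b') b' → b = b'
  surj : ∀ v, (∀ j, v ≠ M.c j b0) → ∃ b, b ≠ b0 ∧ M.c (f b) b = v

/-- `f` is good: the graph joining the two other vertices of every `b ≠ b0` is connected to the
three vertices at `b0`. -/
def Good (M : PMap B W V) (b0 : B) (f : B → Fin 3) : Prop :=
  ∀ K : Set V, K.Nonempty → (∀ j, M.c j b0 ∉ K) →
    ∃ b, b ≠ b0 ∧ ¬ (M.c (f b + 1) b ∈ K ↔ M.c (f b + 2) b ∈ K)

theorem exists_perm_of_det {ι : Type*} [Fintype ι] [DecidableEq ι] {K : Type*} [CommRing K]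
    [IsDomain K] (A : Matrix ι ι K) (h : A.det ≠ 0) :
    ∃ σ : Equiv.Perm ι, ∀ i, A (σ i) i ≠ 0 := by
  by_contra hcon
  push Not at hcon
  apply h
  rw [Matrix.det_apply]
  refine Finset.sum_eq_zero fun σ _ => ?_
  obtain ⟨i, hi⟩ := hcon σ
  have h1 : ∏ j, A (σ j) j = 0 := Finset.prod_eq_zero (Finset.mem_univ i) hi
  exact (congrArg (fun t => Equiv.Perm.sign σ • t) h1).trans (smul_zero _)

/-- values at the white triangles which agree along all dual edges are constant -/
theorem const_white (M : PMap B W V) [Finite B] (hc : M.Conn) {A : Type*} (n : W → A)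
    (h : ∀ b j, n (M.e (j + 1) b) = n (M.e (j + 2) b)) : ∀ w w', n w = n w' := by
  have h0 : ∀ b i j, n (M.e i b) = n (M.e j b) := by
    intro b i j
    rcases fcase i j with rfl | rfl | rfl
    · rfl
    · have := h b (j + 2)
      rw [f21, f22] at this
      exact this.symm
    · have := h b (j + 1)
      rw [f11, f12] at this
      exact this
  have h1 : ∀ j b, n (M.e 0 (M.rho j b)) = n (M.e 0 b) := by
    intro j b
    rw [h0 _ 0 (j + 1), M.e_rho, h0 b (j + 2) 0]
  have h2 : ∀ j (k : ℕ) b, n (M.e 0 ((M.rho j ^ k) b)) = n (M.e 0 b) := by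
    intro j k b
    induction k with
    | zero => rfl
    | succ k ih => rw [pow_succ', Equiv.Perm.mul_apply, h1, ih]
  have h3 : ∀ b b', Relation.EqvGen (fun x y => ∃ j, M.c j x = M.c j y) b b' →
      n (M.e 0 b) = n (M.e 0 b') := by
    intro b b' hb
    induction hb with
    | rel x y hxy =>
      obtain ⟨j, hj⟩ := hxy
      obtain ⟨k, hk⟩ := (M.same_iff j x y).1 hj
      rw [← hk, h2]
    | refl x => rfl
    | symm x y _ ih => exact ih.symm
    | trans x y w _ _ i1 i2 => exact i1.trans i2
  intro w w'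
  rw [← (M.e 0).apply_symm_apply w, ← (M.e 0).apply_symm_apply w']
  exact h3 _ _ (hc _ _)

variable [Fintype B] [DecidableEq V]

/-- the boundary of a 2-chain is a cycle: at vertices -/
theorem sum_vertex (M : PMap B W V) {A : Type*} [AddCommGroup A] (n : W → A) (v : V) :
    (∑ b, ∑ j, if M.c j b = v then (n (M.e (j + 1) b) - n (M.e (j + 2) b)) else 0) = 0 := by
  rw [Finset.sum_comm]
  refine Finset.sum_eq_zero fun j _ => ?_
  have h1 : (∑ b, if M.c j b = v then (n (M.e (j + 1) b) - n (M.e (j + 2) b)) else 0) =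
      (∑ b, if M.c j b = v then n (M.e (j + 1) b) else 0) -
        ∑ b, if M.c j b = v then n (M.e (j + 2) b) else 0 := by
    rw [← Finset.sum_sub_distrib]
    refine Finset.sum_congr rfl fun b _ => ?_
    split_ifs <;> simp
  rw [h1, sub_eq_zero, ← Equiv.sum_comp (M.rho j)]
  refine Finset.sum_congr rfl fun b _ => ?_
  rw [M.c_rho, M.e_rho]

variable [DecidableEq B]

/-- (B) -/
theorem gamma_conn (M : PMap B W V) (hc : M.Conn) (b0 : B) (f : B → Fin 3)
    (hf : Mat M b0 f) (hg : Good M b0 f) (n : W → ℚ)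
    (hn : ∀ b, b ≠ b0 → n (M.e (f b + 1) b) = n (M.e (f b + 2) b)) :
    ∀ w w', n w = n w' := by
  classical
  let x : B → Fin 3 → ℚ := fun b j => n (M.e (j + 1) b) - n (M.e (j + 2) b)
  let A : Matrix {b // b ≠ b0} {b // b ≠ b0} ℚ := Matrix.of fun b b' =>
    (if M.c (f b + 1) b = M.c (f b') b' then 1 else 0) -
      (if M.c (f b + 2) b = M.c (f b') b' then 1 else 0)
  have hA : ∀ z : {b // b ≠ b0} → ℚ, A.mulVec z = 0 → z = 0 := by
    intro z hz
    -- the potential on V
    let y : V → ℚ := fun v => ∑ b : {b // b ≠ b0}, if v = M.c (f b) b then z b else 0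
    have hy : ∀ b : {b // b ≠ b0}, y (M.c (f b) b) = z b := by
      intro b
      simp only [y]
      rw [Finset.sum_eq_single b]
      · simp
      · intro b' _ hb'
        rw [if_neg]
        intro h
        exact hb' (Subtype.ext (hf.inj _ _ b.2 b'.2 h)).symm
      · intro h; exact absurd (Finset.mem_univ _) h
    have hy0 : ∀ j, y (M.c j b0) = 0 := by
      intro j
      refine Finset.sum_eq_zero fun b _ => ?_
      rw [if_neg]
      intro h
      exact hf.off _ b.2 j h.symm
    have he : ∀ b : B, b ≠ b0 → y (M.c (f b + 1) b) = y (M.c (f b + 2) b) := by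
      intro b hb
      have := congrFun hz ⟨b, hb⟩
      simp only [mulVec, dotProduct, A, of_apply, sub_mul, ite_mul, one_mul, zero_mul,
        Finset.sum_sub_distrib, Pi.zero_apply] at this
      exact sub_eq_zero.1 this
    have hK : ∀ v, y v = 0 := by
      by_contra hcon
      push Not at hcon
      obtain ⟨v, hv⟩ := hcon
      obtain ⟨b, hb, hb'⟩ := hg {v | y v ≠ 0} ⟨v, hv⟩ (fun j h => h (hy0 j))
      apply hb'
      change ¬ (y (M.c (f b + 1) b) = 0) ↔ ¬ (y (M.c (f b + 2) b) = 0)
      rw [he b hb]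
    funext b
    rw [← hy b, hK]
    rfl
  have hdet : A.det ≠ 0 := by
    intro h0
    obtain ⟨v, hv, hv'⟩ := Matrix.exists_mulVec_eq_zero_iff.2 h0
    exact hv (hA v hv')
  have hcol : ∀ v, (∑ b, ∑ j, if M.c j b = v then x b j else 0) = 0 := fun v => sum_vertex M n v
  have hxf : ∀ b, b ≠ b0 → x b (f b) = 0 := fun b hb => sub_eq_zero.2 (hn b hb)
  have hx1 : ∀ b, b ≠ b0 → x b (f b + 2) = - x b (f b + 1) := by
    intro b hb
    have := hn b hb
    simp only [x]
    rw [f21, f22, f11, f12]
    rw [this]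
    ring
  have hsum3 : ∀ (b : B) (j : Fin 3) (F : Fin 3 → ℚ), ∑ i, F i = F j + F (j + 1) + F (j + 2) := by
    intro b j F
    rw [Fin.sum_univ_three]
    fin_cases j
    · rfl
    · simp only [Fin.mk_one, Fin.isValue]
      rw [show (1 : Fin 3) + 1 = 2 from rfl, show (1 : Fin 3) + 2 = 0 from rfl]
      ring
    · change F 0 + F 1 + F 2 = F 2 + F (2 + 1) + F (2 + 2)
      rw [show (2 : Fin 3) + 1 = 0 from rfl, show (2 : Fin 3) + 2 = 1 from rfl]
      ring
  have hsub : ∀ G : B → ℚ, (∑ b : {b // b ≠ b0}, G b) = (∑ b, G b) - G b0 := by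
    intro G
    rw [← Finset.sum_subtype (Finset.univ.erase b0) (by simp) G, eq_sub_iff_add_eq,
      Finset.sum_erase_add _ _ (Finset.mem_univ b0)]
  have hy : (fun b : {b // b ≠ b0} => x b (f b + 1)) = 0 := by
    by_contra hne
    apply hdet
    refine Matrix.exists_vecMul_eq_zero_iff.1 ⟨_, hne, ?_⟩
    funext b'
    have h1 := hcol (M.c (f b') b')
    simp only [vecMul, dotProduct, Pi.zero_apply, A, of_apply]
    have h2 : ∀ b : {b // b ≠ b0}, x b (f b + 1) *
        ((if M.c (f b + 1) b = M.c (f b') b' then 1 else 0) -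
          (if M.c (f b + 2) b = M.c (f b') b' then 1 else 0)) =
        ∑ j, if M.c j b = M.c (f b') b' then x b j else 0 := by
      intro b
      rw [hsum3 b (f b), hx1 _ b.2, hxf _ b.2]
      split_ifs <;> ring
    rw [Finset.sum_congr rfl (fun b _ => h2 b)]
    rw [hsub (fun b => ∑ j, if M.c j b = M.c (f b') b' then x b j else 0), h1, zero_sub, neg_eq_zero]
    refine Finset.sum_eq_zero fun j _ => ?_
    rw [if_neg]
    exact fun h => hf.off _ b'.2 j h.symm
  have hx0 : ∀ b, b ≠ b0 → ∀ j, x b j = 0 := by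
    intro b hb j
    have h1 : x b (f b + 1) = 0 := congrFun hy ⟨b, hb⟩
    rcases fcase j (f b) with rfl | rfl | rfl
    · exact hxf b hb
    · exact h1
    · rw [hx1 b hb, h1, neg_zero]
  have hx00 : ∀ j, x b0 j = 0 := by
    intro j
    have h1 := hcol (M.c j b0)
    rw [Finset.sum_eq_single b0] at h1
    · rw [Finset.sum_eq_single j] at h1
      · simpa using h1
      · intro i _ hi
        rw [if_neg]
        intro h
        exact hi (M.cls _ _ _ _ h)
      · intro h; exact absurd (Finset.mem_univ _) h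
    · intro b _ hb
      refine Finset.sum_eq_zero fun i _ => ?_
      rw [hx0 b hb]
      simp
    · intro h; exact absurd (Finset.mem_univ _) h
  apply const_white M hc
  intro b j
  have : x b j = 0 := by
    by_cases hb : b = b0
    · rw [hb]; exact hx00 j
    · exact hx0 b hb j
  exact sub_eq_zero.1 this

variable [DecidableEq W]

/-- (C): for every colour `k` a perfect matching of the web through the edge `k` at `b0` which
avoids the edges `f b` -/
theorem exists_matching (M : PMap B W V) (hc : M.Conn) (b0 : B) (f : B → Fin 3)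
    (hf : Mat M b0 f) (hg : Good M b0 f) (k : Fin 3) :
    ∃ m : B → Fin 3, m b0 = k ∧ (∀ b, b ≠ b0 → m b ≠ f b) ∧
      Function.Injective (fun b => M.e (m b) b) := by
  classical
  let A : Matrix {b // b ≠ b0} {b // b ≠ b0} ℚ := Matrix.of fun b b' =>
    (if M.e (f b + 1) b = M.e k b' then 1 else 0) - (if M.e (f b + 2) b = M.e k b' then 1 else 0)
  have hA : ∀ z : {b // b ≠ b0} → ℚ, A.mulVec z = 0 → z = 0 := by
    intro z hz
    let y : W → ℚ := fun w => ∑ b : {b // b ≠ b0}, if w = M.e k b then z b else 0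
    have hy : ∀ b : {b // b ≠ b0}, y (M.e k b) = z b := by
      intro b
      simp only [y]
      rw [Finset.sum_eq_single b]
      · simp
      · intro b' _ hb'
        rw [if_neg]
        intro h
        exact hb' (Subtype.ext ((M.e k).injective h)).symm
      · intro h; exact absurd (Finset.mem_univ _) h
    have hy0 : y (M.e k b0) = 0 := by
      refine Finset.sum_eq_zero fun b _ => ?_
      rw [if_neg]
      intro h
      exact b.2 ((M.e k).injective h).symm
    have he : ∀ b : B, b ≠ b0 → y (M.e (f b + 1) b) = y (M.e (f b + 2) b) := by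
      intro b hb
      have := congrFun hz ⟨b, hb⟩
      simp only [mulVec, dotProduct, A, of_apply, sub_mul, ite_mul, one_mul, zero_mul,
        Finset.sum_sub_distrib, Pi.zero_apply] at this
      exact sub_eq_zero.1 this
    have hconst := gamma_conn M hc b0 f hf hg y he
    funext b
    rw [← hy b, hconst _ (M.e k b0), hy0]
    rfl
  have hdet : A.det ≠ 0 := by
    intro h0
    obtain ⟨v, hv, hv'⟩ := Matrix.exists_mulVec_eq_zero_iff.2 h0
    exact hv (hA v hv')
  obtain ⟨σ, hσ⟩ := exists_perm_of_det A hdet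
  have hex : ∀ b : {b // b ≠ b0}, ∃ j, j ≠ f b ∧ M.e j b = M.e k (σ.symm b) := by
    intro b
    have h1 := hσ (σ.symm b)
    rw [Equiv.apply_symm_apply] at h1
    simp only [A, of_apply] at h1
    by_cases h2 : M.e (f b + 1) b = M.e k (σ.symm b)
    · exact ⟨_, fne1 _, h2⟩
    · by_cases h3 : M.e (f b + 2) b = M.e k (σ.symm b)
      · exact ⟨_, fne2 _, h3⟩
      · rw [if_neg h2, if_neg h3] at h1
        exact absurd (sub_self _) h1
  choose g hg1 hg2 using hex
  refine ⟨fun b => if h : b = b0 then k else g ⟨b, h⟩, by simp, ?_, ?_⟩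
  · intro b hb
    simp only [hb, dif_neg, not_false_eq_true]
    exact hg1 ⟨b, hb⟩
  · intro b b' h
    by_cases hb : b = b0
    · by_cases hb' : b' = b0
      · rw [hb, hb']
      · simp only [hb, hb', dif_pos, dif_neg, not_false_eq_true] at h
        rw [hg2 ⟨b', hb'⟩] at h
        exact absurd ((M.e k).injective h).symm (σ.symm ⟨b', hb'⟩).2
    · by_cases hb' : b' = b0
      · simp only [hb, hb', dif_pos, dif_neg, not_false_eq_true] at h
        rw [hg2 ⟨b, hb⟩] at h
        exact absurd ((M.e k).injective h) (σ.symm ⟨b, hb⟩).2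
      · simp only [hb, hb', dif_neg, not_false_eq_true] at h
        rw [hg2 ⟨b, hb⟩, hg2 ⟨b', hb'⟩] at h
        have h1 := σ.symm.injective (Subtype.ext ((M.e k).injective h))
        exact congrArg Subtype.val h1

end Vale.Agent.P039.H703
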