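import Vale.Agent.P039.H703.Good

/-! STEP 1, second half: if the edges of the perfect matching `m` are owned by different vertices,
then the rest of the web is one cycle. -/

namespace Vale.Agent.P039.H703

open Vale.Agent.P039.Bn Finset

variable {B W V : Type} [Fintype B] [DecidableEq B] [DecidableEq W] [DecidableEq V]

theorem sum_fin3 {A : Type*} [AddCommMonoid A] (j : Fin 3) (F : Fin 3 → A) :
    ∑ i, F i = F j + F (j + 1) + F (j + 2) := by
  rw [Fin.sum_univ_three]
  fin_cases j
  · rfl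
  · change F 0 + F 1 + F 2 = F 1 + F (1 + 1) + F (1 + 2)
    rw [show (1 : Fin 3) + 1 = 2 from rfl, show (1 : Fin 3) + 2 = 0 from rfl]
    rw [add_comm (F 1 + F 2) (F 0), add_assoc]
  · change F 0 + F 1 + F 2 = F 2 + F (2 + 1) + F (2 + 2)
    rw [show (2 : Fin 3) + 1 = 0 from rfl, show (2 : Fin 3) + 2 = 1 from rfl]
    rw [add_comm (F 0 + F 1) (F 2), add_assoc]

/-- `|S| = |T|` for a set which is closed under the non-matching edges -/
theorem card_closed (M : PMap B W V) (m : B → Fin 3)
    (hinj : Function.Injective fun b => M.e (m b) b) (S : Finset B) (T : Finset W)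
    (hcl : ∀ b j, j ≠ m b → (b ∈ S ↔ M.e j b ∈ T)) :
    S.card = T.card ∧ (edges M S T).card =
      2 * S.card + (S.filter fun b => M.e (m b) b ∈ T).card := by
  classical
  have hbij : Function.Bijective fun b => M.e (m b) b := by
    refine ⟨hinj, ?_⟩
    have : Finite W := Finite.of_equiv _ (M.e 0)
    have h1 : Function.Injective fun b => (M.e 0).symm (M.e (m b) b) :=
      (M.e 0).symm.injective.comp hinj
    have h2 := Finite.surjective_of_injective h1
    intro w
    obtain ⟨b, hb⟩ := h2 ((M.e 0).symm w)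
    exact ⟨b, (M.e 0).symm.injective hb⟩
  have hcardT : ∀ g : B → W, Function.Bijective g → (∑ b, if g b ∈ T then 1 else 0) = T.card := by
    intro g hg
    rw [← Finset.card_filter]
    refine Finset.card_bij (fun b _ => g b) ?_ ?_ ?_
    · intro b hb
      exact (Finset.mem_filter.1 hb).2
    · intro b _ b' _ h
      exact hg.1 h
    · intro w hw
      obtain ⟨b, hb⟩ := hg.2 w
      exact ⟨b, Finset.mem_filter.2 ⟨Finset.mem_univ _, hb ▸ hw⟩, hb⟩
  have h3 : ∀ b, (∑ j, if M.e j b ∈ T then 1 else 0) =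
      (if M.e (m b) b ∈ T then 1 else 0) + 2 * (if b ∈ S then 1 else 0) := by
    intro b
    rw [sum_fin3 (m b), add_assoc]
    congr 1
    by_cases hb : b ∈ S
    · rw [if_pos ((hcl b _ (fne1 _)).1 hb), if_pos ((hcl b _ (fne2 _)).1 hb), if_pos hb]
    · rw [if_neg (fun h => hb ((hcl b _ (fne1 _)).2 h)), if_neg (fun h => hb ((hcl b _ (fne2 _)).2 h)),
        if_neg hb]
  have h4 : (∑ b, ∑ j, if M.e j b ∈ T then 1 else 0) = 3 * T.card := by
    rw [Finset.sum_comm]
    rw [Finset.sum_congr rfl (fun j _ => hcardT (M.e j) (M.e j).bijective)]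
    simp
  have h5 : (∑ b, if b ∈ S then 1 else 0) = S.card := by simp
  have h6 : 3 * T.card = T.card + 2 * S.card := by
    rw [← h4, Finset.sum_congr rfl (fun b _ => h3 b), Finset.sum_add_distrib, hcardT _ hbij,
      ← Finset.mul_sum, h5]
  refine ⟨by omega, ?_⟩
  have h7 : (edges M S T).card = ∑ b ∈ S, ∑ j, if M.e j b ∈ T then 1 else 0 := by
    unfold edges
    rw [Finset.card_filter, Finset.sum_product]
  rw [h7, Finset.sum_congr rfl (fun b _ => h3 b), Finset.sum_add_distrib, ← Finset.card_filter,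
    ← Finset.mul_sum, add_comm]
  congr 2
  simp

/-- (D) -/
theorem comp_all [Fintype V] (M : PMap B W V) (hc : M.Conn)
    (hcard : Fintype.card V = Fintype.card B + 2) (b0 : B) (f m : B → Fin 3)
    (hsurj : ∀ v, (∀ j, v ≠ M.c j b0) → ∃ b, b ≠ b0 ∧ M.c (f b) b = v)
    (hm : ∀ b, b ≠ b0 → m b ≠ f b) (hinj : Function.Injective fun b => M.e (m b) b)
    (S : Finset B) (T : Finset W) (hb0 : b0 ∈ S)
    (hcl : ∀ b j, j ≠ m b → (b ∈ S ↔ M.e j b ∈ T)) (hD : ConnIn M S T) : ∀ b, b ∈ S := by
  classical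
  by_contra hcon
  push Not at hcon
  obtain ⟨b1, hb1⟩ := hcon
  obtain ⟨hST, hE⟩ := card_closed M m hinj S T hcl
  set Z : Finset B := Finset.univ.filter fun b => ¬ (b ∈ S ↔ M.e (m b) b ∈ T) with hZ
  set A : Finset B := S.filter fun b => M.e (m b) b ∈ T with hA
  set A' : Finset B := Finset.univ.filter fun b => b ∉ S ∧ M.e (m b) b ∉ T with hA'
  let g : B → V := fun b => if b ∈ S then M.c (m b + 1) b else M.c (m b + 2) b
  set Im : Finset V := Z.image g with hIm
  set I : Finset V := Finset.univ.filter fun v =>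
    ∀ b j, M.c j b = v → b ∈ S ∧ M.e (j + 1) b ∈ T ∧ M.e (j + 2) b ∈ T with hI
  set O : Finset V := Finset.univ.filter fun v => v ∉ Im ∧ ∀ b j, M.c j b = v → b ∉ S with hO
  -- propagation
  have P1 : ∀ j b, M.c j b ∉ Im → b ∈ S → M.e (j + 2) b ∈ T := by
    intro j b hv hb
    by_contra hw
    have hj : j + 2 = m b := by
      by_contra h
      exact hw ((hcl b _ h).1 hb)
    apply hv
    rw [hIm, Finset.mem_image]
    refine ⟨b, ?_, ?_⟩
    · rw [hZ, Finset.mem_filter]
      refine ⟨Finset.mem_univ _, fun h => ?_⟩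
      rw [← hj] at h
      exact hw (h.1 hb)
    · simp only [g]
      rw [if_pos hb, ← hj, f21]
  have P2 : ∀ j b, M.c j b ∉ Im → M.e (j + 2) b ∈ T → M.rho j b ∈ S := by
    intro j b hv hw
    by_contra hb
    have hw' : M.e (j + 1) (M.rho j b) ∈ T := by rw [M.e_rho]; exact hw
    have hj : j + 1 = m (M.rho j b) := by
      by_contra h
      exact hb ((hcl _ _ h).2 hw')
    apply hv
    rw [hIm, Finset.mem_image]
    refine ⟨M.rho j b, ?_, ?_⟩
    · rw [hZ, Finset.mem_filter]
      refine ⟨Finset.mem_univ _, fun h => ?_⟩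
      rw [← hj] at h
      exact hb (h.2 hw')
    · simp only [g]
      rw [if_neg hb, ← hj, f12, M.c_rho]
  have P3 : ∀ j b, M.c j b ∉ Im → b ∈ S → ∀ n : ℕ, (M.rho j ^ n) b ∈ S := by
    intro j b hv hb n
    induction n with
    | zero => exact hb
    | succ n ih =>
      rw [pow_succ', Equiv.Perm.mul_apply]
      have hv' : M.c j ((M.rho j ^ n) b) ∉ Im := by rw [M.c_rho_pow]; exact hv
      exact P2 j _ hv' (P1 j _ hv' ih)
  have P4 : ∀ j b b', M.c j b ∉ Im → b ∈ S → M.c j b' = M.c j b → b' ∈ S := by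
    intro j b b' hv hb h
    obtain ⟨n, hn⟩ := (M.same_iff j b b').1 h.symm
    rw [← hn]
    exact P3 j b hv hb n
  have hcov : (Finset.univ : Finset V) ⊆ Im ∪ I ∪ O := by
    intro v _
    by_cases hv : v ∈ Im
    · exact Finset.mem_union_left _ (Finset.mem_union_left _ hv)
    · by_cases hS : ∃ b j, M.c j b = v ∧ b ∈ S
      · obtain ⟨b, j, rfl, hb⟩ := hS
        refine Finset.mem_union_left _ (Finset.mem_union_right _ ?_)
        rw [hI, Finset.mem_filter]
        refine ⟨Finset.mem_univ _, ?_⟩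
        intro b' j' h
        obtain rfl := M.cls _ _ _ _ h
        have hb' := P4 j' b b' hv hb h
        refine ⟨hb', ?_, ?_⟩
        · have h2 : M.c j' ((M.rho j').symm b') = M.c j' b := by rw [M.c_rho_symm, h]
          have h3 := P1 j' ((M.rho j').symm b') (by rw [h2]; exact hv) (P4 j' b _ hv hb h2)
          rw [← M.e_rho, Equiv.apply_symm_apply] at h3
          exact h3
        · exact P1 j' b' (by rw [h]; exact hv) hb'
      · refine Finset.mem_union_right _ ?_
        rw [hO, Finset.mem_filter]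
        refine ⟨Finset.mem_univ _, hv, ?_⟩
        intro b j h hb
        exact hS ⟨b, j, h, hb⟩
  have hOA : O ⊆ A'.image fun b => M.c (f b) b := by
    intro v hv
    rw [hO, Finset.mem_filter] at hv
    obtain ⟨-, hv, hvS⟩ := hv
    obtain ⟨b, hb, rfl⟩ := hsurj v (fun j h => hvS b0 j h.symm hb0)
    rw [Finset.mem_image]
    refine ⟨b, ?_, rfl⟩
    have hbS : b ∉ S := hvS b _ rfl
    rw [hA', Finset.mem_filter]
    refine ⟨Finset.mem_univ _, hbS, ?_⟩
    intro hw
    have hbZ : b ∈ Z := by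
      rw [hZ, Finset.mem_filter]
      exact ⟨Finset.mem_univ _, fun h => hbS (h.2 hw)⟩
    have hfm := hm b hb
    rcases fcase (f b) (m b) with h | h | h
    · exact hfm h.symm
    · -- `f b = m b + 1`
      have h2 : M.rho (f b) b ∈ S := by
        refine P2 (f b) b hv ?_
        have : f b + 2 = m b := by rw [h, f12]
        rw [this]
        exact hw
      exact hvS (M.rho (f b) b) (f b) (M.c_rho _ _) h2
    · apply hv
      rw [hIm, Finset.mem_image]
      refine ⟨b, hbZ, ?_⟩
      simp only [g]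
      rw [if_neg hbS, ← h]
  have c1 : Im.card ≤ Z.card := Finset.card_image_le
  have c2 : O.card ≤ A'.card := (Finset.card_le_card hOA).trans Finset.card_image_le
  have c3 : Fintype.card V ≤ Im.card + I.card + O.card := by
    have := Finset.card_le_card hcov
    rw [Finset.card_univ] at this
    exact this.trans ((Finset.card_union_le _ _).trans
      (Nat.add_le_add_right (Finset.card_union_le _ _) _))
  have c4 : Fintype.card B = A.card + A'.card + Z.card := by
    have e1 : (Finset.univ : Finset B) = A ∪ A' ∪ Z := by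
      ext b
      simp only [hA, hA', hZ, Finset.mem_union, Finset.mem_filter, Finset.mem_univ, true_and,
        true_iff]
      tauto
    have d1 : Disjoint A A' := by
      rw [Finset.disjoint_left]
      intro b h1 h2
      rw [hA, Finset.mem_filter] at h1
      rw [hA', Finset.mem_filter] at h2
      exact h2.2.1 h1.1
    have d2 : Disjoint (A ∪ A') Z := by
      rw [Finset.disjoint_left]
      intro b h1 h2
      rw [hZ, Finset.mem_filter] at h2
      rw [Finset.mem_union, hA, hA', Finset.mem_filter, Finset.mem_filter] at h1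
      tauto
    rw [← Finset.card_univ, e1, Finset.card_union_of_disjoint d2, Finset.card_union_of_disjoint d1]
  have c5 := rank M hc S T hD I (by
    intro b j h
    rw [hI, Finset.mem_filter] at h
    exact h.2 b j rfl) ⟨M.c 0 b1, by
      rw [hI, Finset.mem_filter]
      exact fun h => hb1 (h.2 b1 0 rfl).1⟩
  omega

/-- STEP 1: the statement used for gluing. -/
theorem step1 [Fintype V] (M : PMap B W V) (hc : M.Conn)
    (hcard : Fintype.card V = Fintype.card B + 2) (b0 : B) (f : B → Fin 3)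
    (hf : Mat M b0 f) (hg : Good M b0 f) (k : Fin 3) :
    ∃ m : B → Fin 3, m b0 = k ∧ Function.Bijective (fun b => M.e (m b) b) ∧
      ∀ (S : Set B) (T : Set W), (∀ b j, j ≠ m b → (b ∈ S ↔ M.e j b ∈ T)) → S.Nonempty →
        ∀ b, b ∈ S := by
  classical
  obtain ⟨m, hm0, hm, hinj⟩ := exists_matching M hc b0 f hf hg k
  have : Fintype W := Fintype.ofEquiv _ (M.e 0)
  have hbij : Function.Bijective fun b => M.e (m b) b :=
    (Fintype.bijective_iff_injective_and_card _).2 ⟨hinj, Fintype.card_congr (M.e 0)⟩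
  refine ⟨m, hm0, hbij, ?_⟩
  -- the component of `b0`
  let R : B → B → Prop := fun b b' => ∃ j j', j ≠ m b ∧ j' ≠ m b' ∧ M.e j b = M.e j' b'
  let S0 : Finset B := Finset.univ.filter fun b => Relation.EqvGen R b0 b
  let T0 : Finset W := Finset.univ.filter fun w => ∃ b ∈ S0, ∃ j, j ≠ m b ∧ M.e j b = w
  have mS : ∀ b, b ∈ S0 ↔ Relation.EqvGen R b0 b := fun b => by simp [S0]
  have mT : ∀ w, w ∈ T0 ↔ ∃ b ∈ S0, ∃ j, j ≠ m b ∧ M.e j b = w := fun w => by simp [T0]
  have hcl0 : ∀ b j, j ≠ m b → (b ∈ S0 ↔ M.e j b ∈ T0) := by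
    intro b j hj
    constructor
    · intro hb
      exact (mT _).2 ⟨b, hb, j, hj, rfl⟩
    · intro hw
      obtain ⟨b', hb', j', hj', h⟩ := (mT _).1 hw
      exact (mS _).2 (Relation.EqvGen.trans _ _ _ ((mS _).1 hb')
        (Relation.EqvGen.rel _ _ ⟨j', j, hj', hj, h⟩))
  have hall : ∀ b, b ∈ S0 := by
    refine comp_all M hc hcard b0 f m hf.surj hm hinj S0 T0 ((mS _).2 (Relation.EqvGen.refl _))
      hcl0 ?_
    intro z y hzy
    have key : ∀ b b', Relation.EqvGen R b b' → b ∈ S0 → b' ∈ S0 ∧ z b = z b' := by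
      intro b b' h
      induction h with
      | rel x x' hx =>
        intro hxS
        have hx' : x' ∈ S0 := (mS _).2 (Relation.EqvGen.trans _ _ _ ((mS _).1 hxS)
          (Relation.EqvGen.rel _ _ hx))
        obtain ⟨j, j', hj, hj', he⟩ := hx
        refine ⟨hx', ?_⟩
        rw [hzy x hxS j ((hcl0 x j hj).1 hxS), hzy x' hx' j' ((hcl0 x' j' hj').1 hx'), he]
      | refl x => exact fun h => ⟨h, rfl⟩
      | symm x x' hx ih =>
        intro hxS
        have hx' : x ∈ S0 := (mS _).2 (Relation.EqvGen.trans _ _ _ ((mS _).1 hxS)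
          (Relation.EqvGen.symm _ _ hx))
        exact ⟨hx', (ih hx').2.symm⟩
      | trans x x' x'' _ _ i1 i2 =>
        intro hxS
        obtain ⟨h1, h2⟩ := i1 hxS
        obtain ⟨h3, h4⟩ := i2 h1
        exact ⟨h3, h2.trans h4⟩
    have hz0 : ∀ b ∈ S0, z b = z b0 := fun b hb =>
      (key b0 b ((mS _).1 hb) ((mS _).2 (Relation.EqvGen.refl _))).2.symm
    have hy0 : ∀ w ∈ T0, y w = z b0 := by
      intro w hw
      obtain ⟨b, hb, j, hj, rfl⟩ := (mT _).1 hw
      rw [← hzy b hb j hw, hz0 b hb]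
    refine ⟨fun b hb b' hb' => by rw [hz0 b hb, hz0 b' hb'],
      fun b hb w hw => by rw [hz0 b hb, hy0 w hw], fun w hw w' hw' => by rw [hy0 w hw, hy0 w' hw']⟩
  intro S T hST hne
  have hR : ∀ b b', Relation.EqvGen R b b' → (b ∈ S ↔ b' ∈ S) := by
    intro b b' h
    induction h with
    | rel x x' hx =>
      obtain ⟨j, j', hj, hj', he⟩ := hx
      rw [hST x j hj, hST x' j' hj', he]
    | refl x => exact Iff.rfl
    | symm x x' _ ih => exact ih.symm
    | trans x x' x'' _ _ i1 i2 => exact i1.trans i2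
  obtain ⟨b1, hb1⟩ := hne
  intro b
  exact (hR b0 b ((mS _).1 (hall b))).1 ((hR b0 b1 ((mS _).1 (hall b1))).2 hb1)

end Vale.Agent.P039.H703
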