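import Vale.Agent.P039.Bn.Defs
import Mathlib.LinearAlgebra.Matrix.Rank
import Mathlib.LinearAlgebra.Dimension.Constructions
import Mathlib.Algebra.Field.ZMod

/-! The rank inequality: the faces inside a connected set of triangles. -/

namespace Vale.Agent.P039.H703

open Vale.Agent.P039.Bn Finset Matrix

variable {B W V : Type}

section lin

variable {K : Type*} [Field K]

theorem finrank_ker_le_one {ι κ : Type*} [Fintype ι] [Fintype κ]
    (M : Matrix κ ι K) (h : ∀ z : ι → K, M.mulVec z = 0 → ∀ f g, z f = z g) :
    Module.finrank K (LinearMap.ker M.mulVecLin) ≤ 1 := by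
  classical
  have : LinearMap.ker M.mulVecLin ≤ Submodule.span K {(fun _ => 1 : ι → K)} := by
    intro z hz
    rw [LinearMap.mem_ker, Matrix.mulVecLin_apply] at hz
    have hc := h z hz
    rw [Submodule.mem_span_singleton]
    by_cases hι : Nonempty ι
    · obtain ⟨i⟩ := hι
      refine ⟨z i, ?_⟩
      funext j
      simp [hc j i]
    · refine ⟨0, ?_⟩
      funext j
      exact absurd ⟨j⟩ hι
  calc _ ≤ Module.finrank K
        (Submodule.span K {(fun _ => 1 : ι → K)}) := Submodule.finrank_mono this
    _ ≤ 1 := by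
      have := finrank_span_le_card (R := K) ({(fun _ => 1 : ι → K)} : Set (ι → K))
      simpa using this

theorem card_le_rank {ι κ : Type*} [Fintype ι] [Fintype κ]
    (M : Matrix κ ι K) (h : ∀ z : ι → K, M.mulVec z = 0 → ∀ f g, z f = z g) :
    Fintype.card ι ≤ M.rank + 1 := by
  have h1 := LinearMap.finrank_range_add_finrank_ker M.mulVecLin
  have h2 := finrank_ker_le_one M h
  rw [Module.finrank_fintype_fun_eq_card] at h1
  unfold Matrix.rank
  omega

/-- `P : D × E` incidence, `Q : E × I` boundary of faces -/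
theorem rank_ineq {D E I : Type*} [Fintype D] [Fintype E] [Fintype I]
    (P : Matrix D E K) (Q : Matrix E I K)
    (hP : ∀ z : D → K, P.transpose.mulVec z = 0 → ∀ f g, z f = z g)
    (hPQ : ∀ z : I → K, P.mulVec (Q.mulVec z) = 0)
    (hQ : ∀ z : I → K, Q.mulVec z = 0 → z = 0) :
    Fintype.card I + Fintype.card D ≤ Fintype.card E + 1 := by
  classical
  have h1 := card_le_rank P.transpose hP
  rw [Matrix.rank_transpose] at h1
  have h3 := LinearMap.finrank_range_add_finrank_ker P.mulVecLin
  rw [Module.finrank_fintype_fun_eq_card] at h3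
  have h4 : LinearMap.range Q.mulVecLin ≤ LinearMap.ker P.mulVecLin := by
    rintro _ ⟨x, rfl⟩
    rw [LinearMap.mem_ker]
    exact hPQ x
  have h5 := Submodule.finrank_mono h4
  have h6 : Module.finrank K (LinearMap.range Q.mulVecLin) = Fintype.card I := by
    rw [LinearMap.finrank_range_of_inj, Module.finrank_fintype_fun_eq_card]
    intro x y hxy
    have : Q.mulVec (x - y) = 0 := by
      rw [Matrix.mulVec_sub]
      exact sub_eq_zero.2 hxy
    exact sub_eq_zero.1 (hQ _ this)
  unfold Matrix.rank at h1
  omega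

end lin

/-- The number of edges with both ends in `(S, T)`. -/
def edges (M : PMap B W V) [DecidableEq B] [DecidableEq W] (S : Finset B) (T : Finset W) :
    Finset (B × Fin 3) := by
  classical
  exact (S ×ˢ Finset.univ).filter fun p => M.e p.2 p.1 ∈ T

theorem mem_edges (M : PMap B W V) [DecidableEq B] [DecidableEq W] {S : Finset B} {T : Finset W}
    {b : B} {j : Fin 3} : (b, j) ∈ edges M S T ↔ b ∈ S ∧ M.e j b ∈ T := by
  simp [edges]

/-- sum over the three edges at a white triangle -/
theorem sum_white (M : PMap B W V) [Fintype B] [DecidableEq B] [DecidableEq W]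
    {A : Type*} [AddCommMonoid A] (x : B → Fin 3 → A) (w : W) :
    (∑ b, ∑ j, if M.e j b = w then x b j else 0) = ∑ j, x ((M.e j).symm w) j := by
  classical
  rw [Finset.sum_comm]
  refine Finset.sum_congr rfl fun j _ => ?_
  rw [Finset.sum_eq_single ((M.e j).symm w)]
  · simp
  · intro b _ hb
    rw [if_neg]
    intro h
    exact hb (by rw [← h, Equiv.symm_apply_apply])
  · intro h
    exact absurd (Finset.mem_univ _) h

/-- potentials on the vertices of `T` that agree along all edges are constant -/
theorem const_of_edges (M : PMap B W V) (hc : M.Conn) {A : Type*} (z : V → A)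
    (h : ∀ b j, z (M.c (j + 1) b) = z (M.c (j + 2) b)) : ∀ v v', z v = z v' := by
  have h0 : ∀ b i j, z (M.c i b) = z (M.c j b) := by
    intro b i j
    rcases fcase i j with rfl | rfl | rfl
    · rfl
    · have := h b (j + 2)
      rw [f21, f22] at this
      exact this.symm
    · have := h b (j + 1)
      rw [f11, f12] at this
      exact this
  have h1 : ∀ b b', Relation.EqvGen (fun x y => ∃ j, M.c j x = M.c j y) b b' →
      z (M.c 0 b) = z (M.c 0 b') := by
    intro b b' hb
    induction hb with
    | rel x y hxy =>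
      obtain ⟨j, hj⟩ := hxy
      rw [h0 x 0 j, hj, h0 y j 0]
    | refl x => rfl
    | symm x y _ ih => exact ih.symm
    | trans x y w _ _ i1 i2 => exact i1.trans i2
  intro v v'
  obtain ⟨j, b, rfl⟩ := M.surj v
  obtain ⟨j', b', rfl⟩ := M.surj v'
  rw [h0 b j 0, h1 b b' (hc b b'), h0 b' 0 j']

variable [Fintype B] [DecidableEq B] [DecidableEq W] [DecidableEq V]

/-- `D = (S,T)` is connected (through edges inside `D`). -/
def ConnIn (M : PMap B W V) (S : Finset B) (T : Finset W) : Prop :=
  ∀ (z : B → ZMod 2) (y : W → ZMod 2), (∀ b ∈ S, ∀ j, M.e j b ∈ T → z b = y (M.e j b)) →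
    (∀ b ∈ S, ∀ b' ∈ S, z b = z b') ∧ (∀ b ∈ S, ∀ w ∈ T, z b = y w) ∧
      ∀ w ∈ T, ∀ w' ∈ T, y w = y w'

/-- RANK: the faces inside a connected set. -/
theorem rank (M : PMap B W V) (hc : M.Conn) (S : Finset B) (T : Finset W)
    (hD : ConnIn M S T) (I : Finset V)
    (hI : ∀ b j, M.c j b ∈ I → b ∈ S ∧ M.e (j + 1) b ∈ T ∧ M.e (j + 2) b ∈ T)
    (hne : ∃ v, v ∉ I) :
    I.card + (S.card + T.card) ≤ (edges M S T).card + 1 := by
  classical
  let P : Matrix (S ⊕ T) (edges M S T) (ZMod 2) := fun d p =>
    Sum.elim (fun b => if p.1.1 = b.1 then 1 else 0)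
      (fun w => if M.e p.1.2 p.1.1 = w.1 then 1 else 0) d
  let Q : Matrix (edges M S T) I (ZMod 2) := fun p v =>
    (if M.c (p.1.2 + 1) p.1.1 = v.1 then 1 else 0) + (if M.c (p.1.2 + 2) p.1.1 = v.1 then 1 else 0)
  have h2 : ∀ a : ZMod 2, a + a = 0 := by decide
  have hPb : ∀ b p, P (Sum.inl b) p = if p.1.1 = b.1 then 1 else 0 := fun _ _ => rfl
  have hPw : ∀ w p, P (Sum.inr w) p = if M.e p.1.2 p.1.1 = w.1 then 1 else 0 := fun _ _ => rfl
  have hQ' : ∀ p v, Q p v = (if M.c (p.1.2 + 1) p.1.1 = v.1 then 1 else 0) +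
    (if M.c (p.1.2 + 2) p.1.1 = v.1 then 1 else 0) := fun _ _ => rfl
  clear_value P Q
  have key := rank_ineq P Q ?_ ?_ ?_
  · simpa [Fintype.card_sum] using key
  · -- connected
    intro z hz
    have hz' : ∀ b (hb : b ∈ S) j (hj : M.e j b ∈ T), z (Sum.inl ⟨b, hb⟩) = z (Sum.inr ⟨_, hj⟩) := by
      intro b hb j hj
      have := congrFun hz ⟨(b, j), (mem_edges M).2 ⟨hb, hj⟩⟩
      simp only [mulVec, dotProduct, transpose_apply, Fintype.sum_sum_type, hPb, hPw,
        ite_mul, one_mul, zero_mul, Pi.zero_apply] at this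
      rw [Finset.sum_eq_single (⟨b, hb⟩ : S), Finset.sum_eq_single (⟨_, hj⟩ : T)] at this
      · simp only [if_true] at this
        have h3 := h2 (z (Sum.inr ⟨_, hj⟩))
        exact add_right_cancel (this.trans h3.symm)
      · intro w _ hw
        rw [if_neg]
        intro h
        exact hw (Subtype.ext h.symm)
      · intro h; exact absurd (Finset.mem_univ _) h
      · intro w _ hw
        rw [if_neg]
        intro h
        exact hw (Subtype.ext h.symm)
      · intro h; exact absurd (Finset.mem_univ _) h
    obtain ⟨k1, k2, k3⟩ := hD (fun b => if h : b ∈ S then z (Sum.inl ⟨b, h⟩) else 0)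
      (fun w => if h : w ∈ T then z (Sum.inr ⟨w, h⟩) else 0) (by
        intro b hb j hj
        simp only [hb, hj, dif_pos]
        exact hz' b hb j hj)
    intro f g
    rcases f with ⟨b, hb⟩ | ⟨w, hw⟩ <;> rcases g with ⟨b', hb'⟩ | ⟨w', hw'⟩
    · have := k1 b hb b' hb'
      simpa only [hb, hb', dif_pos] using this
    · have := k2 b hb w' hw'
      simpa only [hb, hw', dif_pos] using this
    · have := k2 b' hb' w hw
      simpa only [hb', hw, dif_pos] using this.symm
    · have := k3 w hw w' hw'
      simpa only [hw, hw', dif_pos] using this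
  · -- boundary of boundary
    intro z
    let y : V → ZMod 2 := fun v => if h : v ∈ I then z ⟨v, h⟩ else 0
    have hQz : ∀ p : edges M S T, Q.mulVec z p = y (M.c (p.1.2 + 1) p.1.1) + y (M.c (p.1.2 + 2) p.1.1) := by
      intro p
      have hs : ∀ v : V, (∑ x : I, (if v = x.1 then (1 : ZMod 2) else 0) * z x) = y v := by
        intro v
        by_cases hv : v ∈ I
        · rw [Finset.sum_eq_single (⟨v, hv⟩ : I)]
          · simp [y, hv]
          · intro w _ hw
            rw [if_neg, zero_mul]
            intro h; exact hw (Subtype.ext h.symm)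
          · intro h; exact absurd (Finset.mem_univ _) h
        · rw [Finset.sum_eq_zero]
          · simp [y, hv]
          · intro w _
            rw [if_neg, zero_mul]
            intro h; exact hv (h ▸ w.2)
      simp only [mulVec, dotProduct, hQ', add_mul, Finset.sum_add_distrib]
      rw [hs, hs]
    have hout : ∀ b j, (b, j) ∉ edges M S T → y (M.c (j + 1) b) = 0 ∧ y (M.c (j + 2) b) = 0 := by
      intro b j hbj
      rw [mem_edges] at hbj
      constructor
      · refine dif_neg fun h => ?_
        obtain ⟨h3, h4, h5⟩ := hI b (j + 1) h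
        rw [f12] at h5
        exact hbj ⟨h3, h5⟩
      · refine dif_neg fun h => ?_
        obtain ⟨h3, h4, h5⟩ := hI b (j + 2) h
        rw [f21] at h4
        exact hbj ⟨h3, h4⟩
    have hsum : ∀ F : B → Fin 3 → ZMod 2,
        (∑ p : edges M S T, F p.1.1 p.1.2 * Q.mulVec z p) =
          ∑ b, ∑ j, F b j * (y (M.c (j + 1) b) + y (M.c (j + 2) b)) := by
      intro F
      have : (∑ p : edges M S T, F p.1.1 p.1.2 * Q.mulVec z p) =
          ∑ p ∈ edges M S T, F p.1 p.2 * (y (M.c (p.2 + 1) p.1) + y (M.c (p.2 + 2) p.1)) := by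
        rw [← Finset.sum_coe_sort (edges M S T)]
        refine Finset.sum_congr rfl fun p _ => ?_
        rw [hQz]
      rw [this, Finset.sum_subset (Finset.subset_univ _), Fintype.sum_prod_type]
      rintro ⟨b, j⟩ _ hbj
      obtain ⟨h3, h4⟩ := hout b j hbj
      rw [h3, h4, add_zero, mul_zero]
    funext d
    rcases d with ⟨b, hb⟩ | ⟨w, hw⟩
    · have := hsum fun b' _ => if b' = b then 1 else 0
      rw [mulVec, dotProduct, Pi.zero_apply]
      simp only [hPb]
      refine this.trans ?_
      rw [Finset.sum_eq_single b]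
      · simp only [if_true, one_mul, Fin.sum_univ_three]
        have e1 : (0 : Fin 3) + 1 = 1 := rfl
        have e2 : (0 : Fin 3) + 2 = 2 := rfl
        have e3 : (1 : Fin 3) + 1 = 2 := rfl
        have e4 : (1 : Fin 3) + 2 = 0 := rfl
        have e5 : (2 : Fin 3) + 1 = 0 := rfl
        have e6 : (2 : Fin 3) + 2 = 1 := rfl
        rw [e1, e2, e3, e4, e5, e6]
        generalize y (M.c 0 b) = p
        generalize y (M.c 1 b) = q
        generalize y (M.c 2 b) = r
        revert p q r
        decide
      · intro b' _ hb'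
        simp [hb']
      · intro h; exact absurd (Finset.mem_univ _) h
    · have := hsum fun b' j' => if M.e j' b' = w then 1 else 0
      rw [mulVec, dotProduct, Pi.zero_apply]
      simp only [hPw]
      refine this.trans ?_
      have h5 : ∀ b j, (if M.e j b = w then (1 : ZMod 2) else 0) *
          (y (M.c (j + 1) b) + y (M.c (j + 2) b)) =
          if M.e j b = w then (y (M.c (j + 1) b) + y (M.c (j + 2) b)) else 0 := by
        intro b j
        split_ifs <;> simp
      simp only [h5]
      rw [sum_white M (fun b j => y (M.c (j + 1) b) + y (M.c (j + 2) b)) w]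
      have h6 : ∀ j, y (M.c (j + 1) ((M.e j).symm w)) + y (M.c (j + 2) ((M.e j).symm w)) =
          y (M.cw (j + 1) w) + y (M.cw (j + 2) w) := by
        intro j
        rw [M.cw_symm (j + 1) j (fne1 j).symm w, M.cw_symm (j + 2) j (fne2 j).symm w]
      simp only [h6, Fin.sum_univ_three]
      have e1 : (0 : Fin 3) + 1 = 1 := rfl
      have e2 : (0 : Fin 3) + 2 = 2 := rfl
      have e3 : (1 : Fin 3) + 1 = 2 := rfl
      have e4 : (1 : Fin 3) + 2 = 0 := rfl
      have e5 : (2 : Fin 3) + 1 = 0 := rfl
      have e6 : (2 : Fin 3) + 2 = 1 := rfl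
      rw [e1, e2, e3, e4, e5, e6]
      generalize y (M.cw 0 w) = p
      generalize y (M.cw 1 w) = q
      generalize y (M.cw 2 w) = r
      revert p q r
      decide
  · -- injective
    intro z hz
    let y : V → ZMod 2 := fun v => if h : v ∈ I then z ⟨v, h⟩ else 0
    have hy : ∀ b j, y (M.c (j + 1) b) = y (M.c (j + 2) b) := by
      intro b j
      by_cases hbj : (b, j) ∈ edges M S T
      · have h3 := congrFun hz ⟨(b, j), hbj⟩
        have hs : ∀ v : V, (∑ x : I, (if v = x.1 then (1 : ZMod 2) else 0) * z x) = y v := by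
          intro v
          by_cases hv : v ∈ I
          · rw [Finset.sum_eq_single (⟨v, hv⟩ : I)]
            · simp [y, hv]
            · intro w _ hw
              rw [if_neg, zero_mul]
              intro h; exact hw (Subtype.ext h.symm)
            · intro h; exact absurd (Finset.mem_univ _) h
          · rw [Finset.sum_eq_zero]
            · simp [y, hv]
            · intro w _
              rw [if_neg, zero_mul]
              intro h; exact hv (h ▸ w.2)
        simp only [mulVec, dotProduct, hQ', add_mul, Finset.sum_add_distrib, Pi.zero_apply] at h3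
        rw [hs, hs] at h3
        exact add_right_cancel (h3.trans (h2 (y (M.c (j + 2) b))).symm)
      · rw [mem_edges] at hbj
        have h4 : y (M.c (j + 1) b) = 0 := by
          refine dif_neg fun h => ?_
          obtain ⟨h3, h4, h5⟩ := hI b (j + 1) h
          rw [f12] at h5
          exact hbj ⟨h3, h5⟩
        have h5 : y (M.c (j + 2) b) = 0 := by
          refine dif_neg fun h => ?_
          obtain ⟨h3, h4, h5⟩ := hI b (j + 2) h
          rw [f21] at h4
          exact hbj ⟨h3, h4⟩
        rw [h4, h5]
    have hconst := const_of_edges M hc y hy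
    obtain ⟨v0, hv0⟩ := hne
    funext v
    have h6 := hconst v.1 v0
    have h7 : y v0 = 0 := dif_neg hv0
    have h8 : y v.1 = z v := dif_pos v.2
    rw [← h8, h6, h7]
    rfl

end Vale.Agent.P039.H703
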